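import Vale.Agent.P210U.Sta

/-!
# P210S: the statement `ROUND` (the input of the outer part of stage 1; helper70)
-/

open Filter Topology Set Metric
open scoped ContDiff
open Vale.Agent.P366M Vale.Agent.P210G Vale.Agent.P210U

noncomputable section

namespace Vale.Agent.P210S

section

variable {n : ℕ} {X : Type} [Mf0 n X]

/-- the energy of a family of amplitudes -/
def En {A : Type} [Fintype A] (g : Fld n X) (p : A → X → ℝ) (x : X) : ℝ :=
  ∑ a, ip g (p a) (p a) x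

/-- a unit family of amplitudes; the amplitude `a` lives in the set of its label `lab a` -/
structure Fam {J A : Type} [Fintype A] (U : J → Set X) (lab : A → J) (p : A → X → ℝ) : Prop where
  sm : ∀ a, Smooth (p a)
  one : ∀ x, ∑ a, p a x ^ 2 = 1
  sup : ∀ a x, p a x ≠ 0 → x ∈ U (lab a)

/-- potentials `V j` which blow up at the boundary of `U j` -/
structure Pot {J : Type} (g : Fld n X) (w : ℝ) (Lam : X → ℝ) (U : J → Set X) (V : J → X → ℝ) :
    Prop where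
  opn : ∀ j, IsOpen (U j)
  sm : ∀ j, ∀ x ∈ U j, CAt ∞ (V j) x
  nn : ∀ j, ∀ x ∈ U j, 0 ≤ V j x
  cl : ∀ j (A : ℝ), IsClosed {x ∈ U j | V j x ≤ A}
  gr : ∀ j, ∀ x ∈ U j, ip g (V j) (V j) x ≤ V j x * (w * V j x ^ 2 + Lam x)
  sml : Smooth Lam
  l0 : ∀ x, 0 ≤ Lam x

/-- `g', v'` is a new state over `g, v` which is frozen on `B`; `φ` is the fallback function,
the square of its slope is at most `κ` -/
structure Nw (g : Fld n X) (v : Fin n → X → ℝ) (B : Set X) (κ : ℝ) (g' : Fld n X)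
    (v' : Fin n → X → ℝ) (φ : X → ℝ) : Prop where
  met : Met g'
  cc : CC ∞ v'
  up : Up g g'
  sm : Smooth φ
  fz : ∀ x ∈ B, g' x = g x ∧ (∀ i, v' i x = v i x) ∧ φ x = 0
  p0 : ∀ x, 0 ≤ φ x
  p1 : ∀ x, φ x ≤ 1
  gr : ∀ x, ip g' φ φ x ≤ κ

end

/-- **ROUND** (note 1239) on a closed manifold; on the open set `N` only the label `j₀` lives,
the state does not change on the closed set `B ⊆ N`; the new amplitudes live in neighbourhoods
`U' j` of the closures of the `U j` -/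
def ROUND (n : ℕ) : Prop := ∃ c > (0 : ℝ), ∃ C > (0 : ℝ), ∃ w > (0 : ℝ), ∀ (X : Type) [Mf0 n X]
  [CompactSpace X] (g : Fld n X) (v : Fin n → X → ℝ), Met g → CC ∞ v →
  ∀ (J : Type) [Fintype J] (Lam : X → ℝ) (U : J → Set X) (V : J → X → ℝ), Pot g w Lam U V →
  ∀ (A : Type) [Fintype A] (lab : A → J) (p : A → X → ℝ),
  Fam (fun j => {x ∈ U j | V j x = 0}) lab p →
  ∀ U' : J → Set X, (∀ j, IsOpen (U' j)) → (∀ j, closure (U j) ⊆ U' j) →
  ∀ (B N : Set X) (j₀ : J), IsClosed B → IsOpen N → B ⊆ N → (∀ j ≠ j₀, ∀ x ∈ U' j, x ∉ N) →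
  ∀ τ > (0 : ℝ), ∀ ε > (0 : ℝ), ∀ K : ℝ,
  ∃ (g' : Fld n X) (v' : Fin n → X → ℝ) (φ : X → ℝ) (A' : Type) (_ : Fintype A') (lab' : A' → J)
    (p' : A' → X → ℝ), Nw g v B (C / τ) g' v' φ ∧ Fam U' lab' p' ∧ ∀ x,
      En g' p' x ≤ C / τ + En g p x ∧ (φ x ≤ 1 / 2 → En g' p' x ≤ C / τ) ∧
      Rv g v x - C * τ * Lam x - c * τ * En g p x ^ 2 + 32 * c * τ * En g' p' x ^ 2 + K * φ x - ε
        ≤ Rv g' v' x

end Vale.Agent.P210S
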