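import Vale.Agent.P210S.Defs

/-!
# P210S: monotonicity of gradients, linear combinations, potentials
-/

open Filter Topology Set Metric
open scoped ContDiff
open Vale.Agent.P366M Vale.Agent.P210G Vale.Agent.P210U

noncomputable section

namespace Vale.Agent.P210S

variable {n : ℕ} {X : Type} [Mf0 n X] {g g' g'' : Fld n X} {x : X} {u : X → ℝ}

omit [Mf0 n X] in
theorem up_refl (g : Fld n X) : Up g g := fun _ _ => le_rfl

omit [Mf0 n X] in
theorem up_trans (h : Up g g') (h' : Up g' g'') : Up g g'' := fun x ξ => (h x ξ).trans (h' x ξ)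

/-- gradients are shorter in a larger metric -/
theorem ip_mono (hg : Met g) (hg' : Met g') (h : Up g g') (u : X → ℝ) (x : X) :
    ip g' u u x ≤ ip g u u x := by
  set Y : Fin n → ℝ := fun i => gr g' u i x with hY
  set b : Fin n → ℝ := fun k => ∑ l, g x k l * Y l with hb
  have e1 : ip g' u u x = ∑ i, pd i u x * Y i := ip_eq_gr g' u u x
  have e2 : ∑ i, ∑ j, g' x i j * Y i * Y j = ip g' u u x := by
    rw [e1]
    refine Finset.sum_congr rfl fun i _ => ?_
    rw [← hg'.g_up_mul x i fun l => pd l u x, Finset.sum_mul]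
    exact Finset.sum_congr rfl fun j _ => by simp only [hY, gr]; ring
  have e3 : ∀ a : Fin n → ℝ, ∑ i, ∑ j, up g i j x * a i * b j = ∑ i, a i * Y i := fun a =>
    Finset.sum_congr rfl fun i _ => by
      rw [← hg.up_g_mul x i Y, Finset.mul_sum]
      exact Finset.sum_congr rfl fun j _ => by simp only [hb]; ring
  have e4 : ∑ i, b i * Y i = ∑ i, ∑ j, g x i j * Y i * Y j :=
    Finset.sum_congr rfl fun i _ => by
      rw [hb, Finset.sum_mul]
      exact Finset.sum_congr rfl fun j _ => by ring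
  have cs := hg.up_cs x (fun i => pd i u x) b
  rw [e3, e3, e4, ← e1] at cs
  have h1 := h x Y
  rw [e2] at h1
  have h2 := hg.ip_nonneg u x
  have h3 := hg'.ip_nonneg u x
  change _ ≤ ip g u u x * _ at cs
  by_contra hc
  push Not at hc
  nlinarith [mul_le_mul_of_nonneg_left h1 h2]

theorem En_nonneg {A : Type} [Fintype A] (hg : Met g) (p : A → X → ℝ) (x : X) : 0 ≤ En g p x :=
  Finset.sum_nonneg fun _ _ => hg.ip_nonneg _ x

theorem En_mono {A : Type} [Fintype A] (hg : Met g) (hg' : Met g') (h : Up g g') (p : A → X → ℝ)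
    (x : X) : En g' p x ≤ En g p x := Finset.sum_le_sum fun _ _ => ip_mono hg hg' h _ x

theorem En_bd [CompactSpace X] {A : Type} [Fintype A] (hg : Met g) {p : A → X → ℝ}
    (hp : ∀ a, Smooth (p a)) : ∃ E ≥ (0 : ℝ), ∀ x, En g p x ≤ E := by
  have c : Continuous (En g p) :=
    continuous_finsetSum _ fun a _ => (hg.sm_ip (hp a) (hp a)).cont
  obtain ⟨E, hE⟩ := isCompact_univ.bddAbove_image c.continuousOn
  exact ⟨max E 0, le_max_right _ _, fun x => (hE ⟨x, trivial, rfl⟩).trans (le_max_left _ _)⟩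

/-- the Cauchy–Schwarz inequality for linear combinations of gradients -/
theorem ip_comb (hg : Met g) {A : Type} [Fintype A] {p : A → X → ℝ} {t : A → ℝ}
    (h : ∀ i, pd i u x = ∑ a, t a * pd i (p a) x) : ip g u u x ≤ (∑ a, t a ^ 2) * En g p x := by
  have e : ip g u u x = ∑ a, t a * ip g (p a) u x :=
    iv_sum (g := g) (a := df u) (A := fun a => df (p a)) Finset.univ h (df u)
  have h1 : ip g u u x ^ 2 ≤ (∑ a, t a ^ 2) * ∑ a, ip g (p a) u x ^ 2 := by
    rw [e]; exact Finset.sum_mul_sq_le_sq_mul_sq _ _ _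
  have h2 : ∑ a, ip g (p a) u x ^ 2 ≤ En g p x * ip g u u x := by
    rw [En, Finset.sum_mul]
    exact Finset.sum_le_sum fun a _ => hg.ip_cs _ _ x
  have h3 : 0 ≤ ∑ a, t a ^ 2 := Finset.sum_nonneg fun _ _ => sq_nonneg _
  have h4 := hg.ip_nonneg u x
  have h5 := mul_nonneg h3 (En_nonneg hg p x)
  by_contra hc
  push Not at hc
  nlinarith [mul_le_mul_of_nonneg_left h2 h3]

theorem ip_affine (a b : ℝ) :
    ip g (fun y => a * u y + b) (fun y => a * u y + b) x = a ^ 2 * ip g u u x := by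
  have h : ∀ i, pd i (fun y => a * u y + b) x = a * pd i u x := fun i => by
    rw [pd_add_const, pd_const_mul]
  rw [ip_of_pd h h, sq]

/-! ### the profile -/

/-- the profile of the potentials -/
def Gp (s : ℝ) : ℝ := Real.smoothTransition (2 * s) / (1 - s) ^ 2

theorem Gp_cd {s : ℝ} (hs : s < 1) : ContDiffAt ℝ ∞ Gp s :=
  (Real.smoothTransition.contDiff.contDiffAt.comp s (by fun_prop)).div (by fun_prop)
    (pow_ne_zero _ (by linarith))

theorem Gp_zero {s : ℝ} (hs : s ≤ 0) : Gp s = 0 := by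
  rw [Gp, Real.smoothTransition.zero_of_nonpos (by linarith), zero_div]

theorem Gp_nn (s : ℝ) : 0 ≤ Gp s := div_nonneg (Real.smoothTransition.nonneg _) (sq_nonneg _)

theorem Gp_eq {s : ℝ} (hs : 1 / 2 ≤ s) : Gp s = ((1 - s) ^ 2)⁻¹ := by
  rw [Gp, Real.smoothTransition.one_of_one_le (by linarith), one_div]

theorem Gp_der : ∃ c ≥ (0 : ℝ), ∀ s < 1, deriv Gp s ^ 2 ≤ c * (1 + Gp s ^ 3) := by
  have c : ContinuousOn (deriv Gp) (Icc 0 (1 / 2)) := fun s hs =>
    ((Gp_cd (by linarith [hs.2])).derivWithin (m := 0) (by simp)).continuousAt.continuousWithinAt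
  obtain ⟨M, hM⟩ := isCompact_Icc.exists_bound_of_continuousOn c
  refine ⟨M ^ 2 + 4, by positivity, fun s hs => ?_⟩
  have h0 : 0 ≤ Gp s ^ 3 := pow_nonneg (Gp_nn s) 3
  rcases lt_or_ge s 0 with h | h
  · have e : Gp =ᶠ[𝓝 s] fun _ => 0 :=
      eventually_of_mem (Iio_mem_nhds h) fun t ht => Gp_zero (le_of_lt ht)
    rw [e.deriv_eq, deriv_const, zero_pow two_ne_zero]
    positivity
  rcases le_or_gt s (1 / 2) with h' | h'
  · have := hM s ⟨h, h'⟩
    rw [Real.norm_eq_abs] at this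
    nlinarith [sq_abs (deriv Gp s), abs_nonneg (deriv Gp s), sq_nonneg M]
  · have e : Gp =ᶠ[𝓝 s] fun t => ((1 - t) ^ 2)⁻¹ :=
      eventually_of_mem (Ioi_mem_nhds h') fun t ht => Gp_eq (le_of_lt ht)
    have h1 : (1 - s) ≠ 0 := by linarith
    have d : HasDerivAt (fun t : ℝ => ((1 - t) ^ 2)⁻¹) (2 / (1 - s) ^ 3) s := by
      refine ((((hasDerivAt_id' s).const_sub 1).fun_pow 2).fun_inv (pow_ne_zero 2 h1)).congr_deriv ?_
      field_simp
      ring
    rw [e.deriv_eq, d.deriv]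
    have e2 : (2 / (1 - s) ^ 3) ^ 2 = 4 * Gp s ^ 3 := by rw [Gp_eq h'.le]; field_simp; norm_num
    rw [e2]
    nlinarith [sq_nonneg M]

theorem Gp_sub (A : ℝ) : ∃ r < (1 : ℝ), ∀ s < 1, Gp s ≤ A → s ≤ r := by
  refine ⟨1 - 1 / (|A| + 2), by have := abs_nonneg A; simp only [sub_lt_self_iff]; positivity,
    fun s hs h => ?_⟩
  have h0 := abs_nonneg A
  by_contra hc
  push Not at hc
  have h1 : 1 / (|A| + 2) ≤ 1 / 2 := one_div_le_one_div_of_le two_pos (by linarith)
  rw [Gp_eq (by linarith), inv_le_iff_one_le_mul₀ (pow_pos (by linarith) 2)] at h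
  have h2 : (1 - s) * (|A| + 2) < 1 := by
    rw [← lt_div_iff₀ (by positivity)]; linarith
  have h3 : A * (1 - s) ^ 2 ≤ |A| * (1 - s) ^ 2 :=
    mul_le_mul_of_nonneg_right (le_abs_self A) (sq_nonneg _)
  nlinarith

/-- the loss function -/
def Lm (a y : ℝ) : ℝ := a * y + y ^ 4 / a ^ 2

theorem Lm_mul {a : ℝ} (y : ℝ) {t : ℝ} (ht : t ≠ 0) : Lm (t * a) (t * y) = t ^ 2 * Lm a y := by
  unfold Lm
  rcases eq_or_ne a 0 with rfl | ha
  · simp
  · field_simp

theorem young3 {b W G : ℝ} (hb : 0 ≤ b) (hW : 0 < W) (hG : 0 ≤ G) :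
    b * G ^ 3 ≤ W * G ^ 4 + b ^ 4 / W ^ 3 := by
  have h0 : 0 ≤ b ^ 4 / W ^ 3 := by positivity
  rcases le_total b (W * G) with h | h
  · nlinarith [mul_le_mul_of_nonneg_right h (pow_nonneg hG 3)]
  · have h1 : G ≤ b / W := by rw [le_div_iff₀ hW]; linarith
    have h2 : b * G ^ 3 ≤ b * (b / W) ^ 3 := by gcongr
    have h3 : b * (b / W) ^ 3 = b ^ 4 / W ^ 3 := by field_simp
    have h4 : 0 ≤ W * G ^ 4 := by positivity
    linarith

/-- potentials which vanish where `σ j ≤ 0` and blow up where `σ j = 1` -/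
theorem exists_pot {w : ℝ} (hw : 0 < w) : ∃ C₁ > (0 : ℝ), ∀ (n : ℕ) (X : Type) [Mf0 n X]
    (g : Fld n X) (J : Type) (σ : J → X → ℝ) (y : X → ℝ) (a : ℝ), Met g → (∀ j, Smooth (σ j)) →
    Smooth y → 0 < a → (∀ x, 0 ≤ y x) → (∀ j x, ip g (σ j) (σ j) x ≤ y x) →
    Pot g w (fun x => C₁ * Lm a (y x)) (fun j => {x | σ j x < 1})
      fun j x => a * Gp (σ j x) ^ 2 := by
  obtain ⟨c, c0, hc⟩ := Gp_der
  refine ⟨4 * c + 256 * c ^ 4 / w ^ 3 + 1, by positivity, ?_⟩
  intro n X _ g J σ y a hg hσ hy ha y0 hy'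
  refine ⟨fun j => isOpen_lt (hσ j).cont continuous_const, fun j x hx => ?_,
    fun j x _ => by positivity, fun j A => ?_, fun j x hx => ?_, ?_, fun x => ?_⟩
  · exact cAt_const.mul (((Gp_cd hx).compM (hσ j).contDiffAt).pow 2)
  · obtain ⟨r, hr, h⟩ := Gp_sub (A / a + 1)
    have e : {x ∈ {x | σ j x < 1} | a * Gp (σ j x) ^ 2 ≤ A} =
        σ j ⁻¹' (Iic r ∩ (fun s => a * Gp s ^ 2) ⁻¹' Iic A) := by
      ext x
      refine ⟨fun ⟨h1, h2⟩ => ⟨h _ h1 ?_, h2⟩, fun ⟨h1, h2⟩ => ⟨lt_of_le_of_lt h1 hr, h2⟩⟩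
      have : Gp (σ j x) ^ 2 ≤ A / a := by rw [le_div_iff₀ ha]; linarith
      nlinarith [sq_nonneg (Gp (σ j x) - 1)]
    rw [e]
    refine IsClosed.preimage (hσ j).cont (ContinuousOn.preimage_isClosed_of_isClosed ?_
      isClosed_Iic isClosed_Iic)
    exact fun s hs => (continuousAt_const.mul
      ((Gp_cd (lt_of_le_of_lt hs hr)).continuousAt.pow 2)).continuousWithinAt
  · have d := ((((Gp_cd hx).differentiableAt (by simp)).hasDerivAt).pow 2).const_mul a
    have e := ip_comp (g := g) d d ((hσ j).diff x) ((hσ j).diff x)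
    simp only [Pi.pow_apply] at e
    rw [e]
    have h1 := hc _ hx
    have h2 := hy' j x
    have h3 := hg.ip_nonneg (σ j) x
    have h4 := Gp_nn (σ j x)
    have h0 := y0 x
    generalize Gp (σ j x) = G at *
    generalize deriv Gp (σ j x) = G' at *
    generalize ip g (σ j) (σ j) x = q at *
    have h5 := young3 (b := 4 * a * c * y x) (W := w * a ^ 2) (by positivity) (by positivity) h4
    have h6 : (4 * a * c * y x) ^ 4 / (w * a ^ 2) ^ 3 = 256 * c ^ 4 / w ^ 3 * (y x ^ 4 / a ^ 2) := by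
      field_simp; ring
    have h7 : G' ^ 2 * q ≤ c * (1 + G ^ 3) * y x := mul_le_mul h1 h2 h3 (by positivity)
    have h8 : 4 * a * (G' ^ 2 * q) ≤ w * (a * G ^ 2) ^ 2 +
        (4 * c + 256 * c ^ 4 / w ^ 3 + 1) * Lm a (y x) := by
      have p1 : 0 ≤ a * y x := by positivity
      have p2 : 0 ≤ y x ^ 4 / a ^ 2 := by positivity
      have p3 : 0 ≤ 256 * c ^ 4 / w ^ 3 := by positivity
      unfold Lm
      nlinarith [mul_le_mul_of_nonneg_left h7 (by positivity : 0 ≤ 4 * a), mul_nonneg p1 p3,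
        mul_nonneg p2 c0]
    have h9 := mul_le_mul_of_nonneg_left h8 (by positivity : 0 ≤ a * G ^ 2)
    norm_num
    nlinarith
  · exact cd_const.mul ((cd_const.mul hy).add ((CD.pow hy 4).div_const _))
  · have := y0 x
    unfold Lm
    positivity

end Vale.Agent.P210S
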