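import Vale.Agent.P210S.Fin
import Vale.Agent.P210K.Tr
import Vale.Agent.P210U.Loc

/-!
# P210S: `ROUND n` implies `ST1 n`
-/

open Filter Topology Set Metric
open scoped ContDiff
open Vale.Agent.P366M Vale.Agent.P210G Vale.Agent.P210U Vale.Agent.P210K
open Vale.Agent.P366D (Sec)

noncomputable section

namespace Vale.Agent.P210S

variable {n : ℕ} {M Z : Type} [Mf0 n M] [Mf0 n Z] {g : Fld n M} {g' : Fld n Z} {π : Z → M}
  {σ : M → Z} {V K : Set M}

/-- functions with compact support lift to the extension -/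
theorem lift (h : Sec π σ g g' V) (hK : IsCompact K) (hKV : K ⊆ V) {f : M → ℝ} (hf : Smooth f)
    (h0 : ∀ z ∉ K, f z = 0) {b : ℝ} (hb : ∀ z, ip g f f z ≤ b) (b0 : 0 ≤ b) :
    ∃ F : Z → ℝ, Smooth F ∧ (∀ z ∈ V, F (σ z) = f z) ∧ (∀ x ∉ σ '' K, F x = 0) ∧
      ∀ x, ip g' F F x ≤ b := by
  have o := h.isOpen h.opn subset_rfl
  have c := (cpt_img h hK hKV).isClosed
  have e : ∀ x ∈ σ '' V, x ∉ σ '' K → f (π x) = 0 := by
    rintro _ ⟨z, hz, rfl⟩ k
    rw [h.rt z hz]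
    exact h0 z fun q => k ⟨z, q, rfl⟩
  refine ⟨zF (σ '' V) π f, sm_zF o (fun x _ => h.sm x) c (image_mono hKV) hf e, fun z hz => ?_,
    fun x hx => zF_off e hx, fun x => ?_⟩
  · rw [zF, indicator_of_mem (mem_image_of_mem σ hz), h.rt z hz]
  · by_cases hx : x ∈ σ '' V
    · obtain ⟨z, hz, rfl⟩ := hx
      have q := ind_ev o (mem_image_of_mem σ hz) fun x => f (π x)
      rw [zF, (h.iso z hz).ip (hf.diff _) (hf.diff _) q q]
      exact hb _
    · have q := ind_zero c e fun k => hx (image_mono hKV k)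
      rw [zF, ip_congr q q, ip_const_left]
      exact b0

theorem gn_le_of_ip {u : M → ℝ} {x : M} {ε : ℝ} (ε0 : 0 ≤ ε) (h : ip g u u x ≤ ε ^ 2) :
    gn g u x ≤ ε := Real.sqrt_le_iff.2 ⟨ε0, h⟩

/-- the first labels -/
theorem first {Mo T : ℝ} (hM : ∀ (u : M → ℝ) x, Smooth u → ip g (fun y => Real.smoothTransition (u y))
    (fun y => Real.smoothTransition (u y)) x ≤ Mo * ip g u u x) (M0 : 0 < Mo) (T2 : 2 ≤ T)
    [ProperSpace M] (hg : Met g) (hL : Lp g) {A : Set M} (hA : IsCompact A) (hne : A.Nonempty) :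
    ∃ (J : Type) (_ : Fintype J) (f₀ : M → ℝ) (f : J → M → ℝ), Smooth f₀ ∧ (∀ j, Smooth (f j)) ∧
      (∀ z ∉ cthickening (4 * T + 3) A, f₀ z = 0 ∧ ∀ j, f j z = 0) ∧ (∀ z ∈ A, f₀ z = 1) ∧
      (∀ z, f₀ z = 0 ∨ ∃ j, f j z = 1) ∧
      (∀ j z z', f j z ≠ 0 → f j z' ≠ 0 → dist z z' ≤ 4 * T + 2) ∧
      ∀ z, ip g f₀ f₀ z ≤ 4 * Mo / T ^ 2 ∧ ∀ j, ip g (f j) (f j) z ≤ 4 * Mo / T ^ 2 := by
  obtain ⟨om, o1, o2, o3, o4⟩ := exists_om hg hL hA hne
  choose ρ r1 r2 r3 using fun q => hL q 1 one_pos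
  have T0 : 0 < T := by linarith
  have th : ∀ {r : ℝ} {z q : M}, q ∈ A → dist z q ≤ r → z ∈ cthickening r A := fun hq k =>
    mem_cthickening_of_dist_le _ _ _ _ hq k
  obtain ⟨t, t1, t2⟩ := ((hA.cthickening (r := 2 * T + 2)).of_isClosed_subset
    (isClosed_le o1.cont (continuous_const (y := 2 * T))) fun z hz => by
      obtain ⟨q, hq, k⟩ := o3 z
      exact th hq (by linarith [show om z ≤ 2 * T from hz])).elim_nhds_subcover
    (fun q => ball q 1) fun q _ => ball_mem_nhds q one_pos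
  have sa : ∀ {u : M → ℝ}, Smooth u → Smooth fun z => -T⁻¹ * u z + 2 := fun hu =>
    (cd_const.mul hu).add cd_const
  have one : ∀ {s : ℝ}, s ≤ T → Real.smoothTransition (-T⁻¹ * s + 2) = 1 := fun {s} hs =>
    Real.smoothTransition.one_of_one_le (by
      have : T⁻¹ * s ≤ 1 := by rw [inv_mul_le_iff₀ T0]; linarith
      linarith)
  have ne : ∀ {s : ℝ}, Real.smoothTransition (-T⁻¹ * s + 2) ≠ 0 → s < 2 * T := fun {s} hs => by
    by_contra hc
    refine hs (Real.smoothTransition.zero_of_nonpos ?_)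
    have : 2 ≤ T⁻¹ * s := by rw [le_inv_mul_iff₀ T0]; linarith
    linarith
  have gr : ∀ {u : M → ℝ} {z : M}, Smooth u → ip g u u z ≤ 4 →
      ip g (fun y => Real.smoothTransition (-T⁻¹ * u y + 2))
        (fun y => Real.smoothTransition (-T⁻¹ * u y + 2)) z ≤ 4 * Mo / T ^ 2 := fun {u z} hu k => by
    refine (hM _ z (sa hu)).trans ?_
    rw [ip_affine, neg_sq, inv_pow, div_eq_mul_inv]
    nlinarith [mul_le_mul_of_nonneg_left k (show 0 ≤ Mo * (T ^ 2)⁻¹ by positivity)]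
  have nr : ∀ {q z : M}, Real.smoothTransition (-T⁻¹ * ρ q z + 2) ≠ 0 → dist z q ≤ 2 * T + 1 :=
    fun {q z} k => by linarith [ne k, (abs_le.1 (r2 q z)).1]
  refine ⟨t, inferInstance, fun z => Real.smoothTransition (-T⁻¹ * om z + 2),
    fun q z => Real.smoothTransition (-T⁻¹ * ρ q z + 2), sm_st (sa o1), fun q => sm_st (sa (r1 q)),
    fun z hz => ⟨not_not.1 fun k => hz ?_, fun q => not_not.1 fun k => hz ?_⟩,
    fun z hz => one ((o2 z hz).trans T2), fun z => ?_, fun q z z' k k' => ?_,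
    fun z => ⟨gr o1 (o4 z), fun q => gr (r1 q) ?_⟩⟩
  · obtain ⟨q, hq, k'⟩ := o3 z
    exact th hq (by linarith [ne k])
  · obtain ⟨q', hq, k'⟩ := o3 q
    exact th hq (by linarith [nr k, dist_triangle z q q', show om q ≤ 2 * T from t1 q q.2])
  · refine or_iff_not_imp_left.2 fun k => ?_
    obtain ⟨q, hq, k'⟩ := mem_iUnion₂.1 (t2 (show om z ≤ 2 * T from (ne k).le))
    exact ⟨⟨q, hq⟩, one (by linarith [(abs_le.1 (r2 q z)).2, mem_ball.1 k'])⟩
  · linarith [nr k, nr k', dist_triangle_right z z' q]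
  · have := hg.gn_sq (ρ q) z
    nlinarith [r3 q z, gn_nonneg g (ρ q) z]

/-- **stage 1** -/
theorem st1 (h : ROUND n) : ST1 n := by
  intro η η0
  obtain ⟨C₂, C2, h⟩ := closed h
  obtain ⟨Mo, M0, hM⟩ := exists_st
  set T := 16 * C₂ * Mo / η + 2 with hT
  have T2 : 2 ≤ T := le_add_of_nonneg_left (by positivity)
  have T0 : 0 < T := by linarith
  have hη : C₂ * (4 * (4 * Mo / T ^ 2)) ≤ η := by
    have : 16 * C₂ * Mo ≤ T * η := by rw [← div_le_iff₀ η0]; linarith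
    rw [← mul_div_assoc, ← mul_div_assoc, div_le_iff₀ (by positivity)]
    nlinarith [mul_pos T0 η0]
  refine ⟨4 * T + 4, by positivity, ?_⟩
  intro M _ _ g v hg hv hL A hA I _ pc hp ε ε0
  rcases A.eq_empty_or_nonempty with rfl | hne
  · refine ⟨g, v, fun _ => 1, fun _ _ => 0, ⟨hg, hv, cd_const, fun _ => one_pos⟩, up_refl g,
      fun _ _ => ⟨rfl, fun _ => rfl, rfl⟩, fun _ => cd_const, fun _ k => k.elim,
      fun _ _ k => (lt_irrefl _ k).elim, fun x => ⟨le_rfl, by norm_num; exact η0.le, ?_,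
      fun _ k => (lt_irrefl _ k).elim⟩⟩
    rw [gn_zero fun i => pd_const _ i x]
    exact ε0.le
  obtain ⟨J, _, f₀, f, f1, f2, f3, f4, f5, f6, f7⟩ :=
    first (fun u x => hM n M g u x hg) M0 T2 hg hL hA hne
  set K₁ := cthickening (4 * T + 3) A
  set K₂ := cthickening (4 * T + 4) A
  set O := thickening (4 * T + 4) A
  have c1 : IsCompact K₁ := hA.cthickening
  have c2 : IsCompact K₂ := hA.cthickening
  have a1 : A ⊆ K₁ := self_subset_cthickening A
  have a2 : K₁ ⊆ O := cthickening_subset_thickening' (by positivity) (by linarith) A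
  have a3 : O ⊆ K₂ := thickening_subset_cthickening _ A
  obtain ⟨X, _, _, π, σ, V, a4, -, s⟩ := P210L.closeup hg c2 isOpen_univ (subset_univ _)
    (hne.mono (a1.trans (a2.trans a3)))
  have a5 : K₁ ⊆ V := a2.trans (a3.trans a4)
  have b0 : 0 < 4 * Mo / T ^ 2 := by positivity
  obtain ⟨F₀, F1, F2, F3, F4⟩ := lift s c1 a5 f1 (fun z k => (f3 z k).1) (fun z => (f7 z).1) b0.le
  choose F G1 G2 G3 G4 using fun j => lift s c1 a5 (f2 j) (fun z k => (f3 z k).2 j)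
    (fun z => (f7 z).2 j) b0.le
  obtain ⟨g', v', l, A', _, bk, p, k1, k2, k3, k4, k5⟩ := h X bg (pullC π v) (σ '' O)ᶜ (σ '' K₁)ᶜ
    (σ '' A) (fun x x' => ∃ z ∈ K₁, ∃ z' ∈ K₁, σ z = x ∧ σ z' = x' ∧ dist z z' ≤ 4 * T + 2)
    (Option J) none (fun j => j.elim (fun x => 2 * F₀ x + -1) fun j x => -2 * F j x + 1)
    (4 * (4 * Mo / T ^ 2)) bg_met (hv.pull le_rfl s.sm)
    (s.isOpen isOpen_thickening (a3.trans a4)).isClosed_compl
    (cpt_img s c1 a5).isClosed.isOpen_compl (compl_subset_compl.2 (image_mono a2))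
    (fun x y ⟨z, hz, _, _, e, _⟩ k => k ⟨z, hz, e⟩) ⟨fun j => by
      rcases j with _ | j
      · exact (cd_const.mul F1).add cd_const
      · exact (cd_const.mul (G1 j)).add cd_const, fun x => by
      by_cases hx : x ∈ σ '' K₁
      · obtain ⟨z, hz, rfl⟩ := hx
        rcases f5 z with q | ⟨j, q⟩
        · exact ⟨none, show 2 * F₀ (σ z) + -1 < 0 by rw [F2 z (a5 hz), q]; norm_num⟩
        · exact ⟨some j, show -2 * F j (σ z) + 1 < 0 by rw [G2 j z (a5 hz), q]; norm_num⟩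
      · exact ⟨none, show 2 * F₀ x + -1 < 0 by rw [F3 x hx]; norm_num⟩, fun j hj x x' hx hx' => by
      obtain ⟨j, rfl⟩ := Option.ne_none_iff_exists'.1 hj
      have q : ∀ y, -2 * F j y + 1 < 1 → ∃ z ∈ K₁, σ z = y ∧ f j z ≠ 0 := fun y hy => by
        have q1 : F j y ≠ 0 := fun k => by rw [k] at hy; norm_num at hy
        obtain ⟨z, hz, rfl⟩ := not_not.1 (mt (G3 j y) q1)
        exact ⟨z, hz, rfl, G2 j z (a5 hz) ▸ q1⟩
      obtain ⟨z, hz, e, k⟩ := q x hx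
      obtain ⟨z', hz', e', k'⟩ := q x' hx'
      exact ⟨z, hz, z', hz', e, e', f6 j z z' k k'⟩, by
      rintro _ hx ⟨z, hz, rfl⟩
      have : 2 * F₀ (σ z) + -1 < 1 := hx
      rw [F2 z (a5 (a1 hz)), f4 z hz] at this
      norm_num at this⟩ (by positivity) (fun j x => by
      rcases j with _ | j
      · exact (ip_affine _ _).trans_le (by linarith [F4 x])
      · exact (ip_affine _ _).trans_le (by linarith [G4 j x])) (ε ^ 2 / 4) (by positivity)
  have nb : ∀ y ∈ V, y ∉ K₂ → σ y ∈ (σ '' O)ᶜ := fun y hy k =>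
    notMem_img s (a3.trans a4) hy fun q => k (a3 q)
  have e1 : ∀ y ∈ V, y ∉ K₂ → g' (σ y) = bg (σ y) := fun y hy k => (k4 _ (nb y hy k)).1
  have e2 : ∀ y ∈ V, y ∉ K₂ → ∀ i, v' i (σ y) = pullC π v i (σ y) := fun y hy k =>
    (k4 _ (nb y hy k)).2.1
  have e3 : ∀ y ∈ V, y ∉ K₂ → l (σ y) = (fun _ => 1 : M → ℝ) (π (σ y)) := fun y hy k =>
    (k4 _ (nb y hy k)).2.2
  let Is : I → A' → Prop := fun i a => ¬ bk a ∧ ∃ z ∈ A, dist z (pc i) ≤ 1 ∧ p a (σ z) ≠ 0
  have inj : ∀ {y z : M}, y ∈ V → z ∈ V → σ z = σ y → z = y := fun {y z} hy hz e => by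
    rw [← s.rt z hz, e, s.rt y hy]
  have e5 : ∀ i, ∀ y ∈ V, Ms (Is i) p (σ y) ≠ 0 → y ∈ K₁ ∧ dist y (pc i) ≤ 4 * T + 4 :=
    fun i y hy k => by
      obtain ⟨a, ⟨q1, z, hz, q2, q3⟩, q4⟩ := Ms_pos (lt_of_le_of_ne (Finset.sum_nonneg fun a _ => by
        split_ifs <;> positivity) k.symm)
      obtain ⟨y', hy', z', hz', e, e', q5⟩ := k3.rel a q1 _ _ q4 q3
      obtain rfl := inj hy (a5 hy') e
      obtain rfl := inj (a5 (a1 hz)) (a5 hz') e'
      exact ⟨hy', by linarith [dist_triangle y' z' (pc i)]⟩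
  have e4 : ∀ i, ∀ y ∈ V, y ∉ K₂ → Ms (Is i) p (σ y) = (fun _ => 0 : M → ℝ) (π (σ y)) :=
    fun i y hy k => not_not.1 fun q => k (a3 (a2 (e5 i y hy q).1))
  have cl := c2.isClosed
  have m2 := met_dT s cl a4 hg bg_met k1.met e1
  refine ⟨dT V σ g bg g', dC V π σ v v', dF V π σ (fun _ => 1) l,
    fun i => dF V π σ (fun _ => 0) (Ms (Is i) p), ⟨m2, cc_dC s cl a4 hv k1.cc e2,
    sm_dF s cl a4 cd_const k1.sml e3, fun z => ?_⟩, fun z ξ => ?_,
    fun z hz => ⟨dT_off e1 hz, dC_off e2 hz, dF_off (u := fun _ => 1) e3 hz⟩,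
    fun i => sm_dF s cl a4 cd_const (sm_Ms _ k3.sm) (e4 i), fun z hz => ?_, fun i z hz => ?_,
    fun z => ?_⟩
  · by_cases hz : z ∈ V
    · rw [dF_on s hz]; exact k1.l0 _
    · rw [dF_off (u := fun _ => 1) e3 fun q => hz (a4 q)]; exact one_pos
  · have := dT_le s k2 z ξ
    rwa [dT_self] at this
  · obtain ⟨i, hi⟩ := hp z hz
    refine ⟨i, ?_⟩
    beta_reduce
    rw [dF_on s (a5 (a1 hz)), Ms_one (k3.one _) fun a k =>
      ⟨fun q => k3.co a q _ k ⟨z, hz, rfl⟩, z, hz, hi, k⟩]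
  · beta_reduce at hz
    by_cases hz' : z ∈ V
    · rw [dF_on s hz'] at hz
      exact (e5 i z hz' hz.ne').2
    · rw [dF_off (u := fun _ => 0) (e4 i) fun q => hz' (a4 q)] at hz
      exact (lt_irrefl _ hz).elim
  · by_cases hz : z ∈ V
    · have i2 := iso_dT s cl a4 hg bg_met k1.met e1 hz
      obtain ⟨q1, q2, q3, q4⟩ := k5 (σ z)
      have r0 : Rv bg (pullC π v) (σ z) = Rv g v z := by
        rw [Rv_eq' (s.iso z hz) hv fun _ => .rfl, s.rt z hz]
      rw [Rv_down s cl a4 hg bg_met k1.met k1.cc e1 hz, i2.gn (k1.sml.diff _) (dF_ev s hz),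
        dF_on s hz]
      refine ⟨q1, by linarith, gn_le_of_ip ε0.le (by nlinarith), fun i _ _ => ?_⟩
      rw [i2.gn ((sm_Ms _ k3.sm).diff _) (dF_ev s hz)]
      refine (abs_le_of_sq_le_sq' ?_ ε0.le).2
      rw [mul_pow, k1.met.gn_sq]
      nlinarith [mul_le_mul_of_nonneg_left (ip_Ms k1.met (Is i) k3.sm (k3.one (σ z)))
        (sq_nonneg (l (σ z)))]
    · have o := cl.isOpen_compl.mem_nhds fun q => hz (a4 q)
      have r1 : dF V π σ (fun _ => 1) l =ᶠ[𝓝 z] fun _ => 1 :=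
        eventually_of_mem o fun y k => dF_off (u := fun _ => 1) e3 k
      rw [Rv_of_ev (eventually_of_mem o fun y k => dT_off e1 k)
        fun i => eventually_of_mem o fun y k => dC_off e2 k i, gn_congr r1, r1.self_of_nhds,
        gn_zero fun i => pd_const _ i z]
      refine ⟨le_rfl, by norm_num; exact η0.le, ε0.le, fun i k => ?_⟩
      beta_reduce at k
      rw [dF_off (u := fun _ => 0) (e4 i) fun q => hz (a4 q)] at k
      exact (lt_irrefl _ k).elim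

end Vale.Agent.P210S
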