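import Vale.Agent.P210S.Iter

/-!
# P210S: the variable scale; the soft minimum
-/

open Filter Topology Set Metric
open scoped ContDiff
open Vale.Agent.P366M Vale.Agent.P210G Vale.Agent.P210U

noncomputable section

namespace Vale.Agent.P210S

variable {n : ℕ} {X : Type} [Mf0 n X] {g : Fld n X} {v : Fin n → X → ℝ}

/-- smooth steps have bounded gradients -/
theorem exists_st : ∃ M > (0 : ℝ), ∀ (n : ℕ) (X : Type) [Mf0 n X] (g : Fld n X) (u : X → ℝ) (x : X),
    Met g → Smooth u → ip g (fun y => Real.smoothTransition (u y))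
      (fun y => Real.smoothTransition (u y)) x ≤ M * ip g u u x := by
  have c : ContDiff ℝ 1 Real.smoothTransition := Real.smoothTransition.contDiff
  obtain ⟨M, hM⟩ := (isCompact_Icc (a := (0 : ℝ)) (b := 1)).exists_bound_of_continuousOn
    (c.continuous_deriv le_rfl).continuousOn
  have b : ∀ s, deriv Real.smoothTransition s ^ 2 ≤ M ^ 2 + 1 := fun s => by
    rcases lt_or_ge s 0 with h | h
    · have e : Real.smoothTransition =ᶠ[𝓝 s] fun _ => 0 := eventually_of_mem (Iio_mem_nhds h)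
        fun t ht => Real.smoothTransition.zero_of_nonpos (le_of_lt ht)
      rw [e.deriv_eq, deriv_const, zero_pow two_ne_zero]
      positivity
    rcases lt_or_ge 1 s with h' | h'
    · have e : Real.smoothTransition =ᶠ[𝓝 s] fun _ => 1 := eventually_of_mem (Ioi_mem_nhds h')
        fun t ht => Real.smoothTransition.one_of_one_le (le_of_lt ht)
      rw [e.deriv_eq, deriv_const, zero_pow two_ne_zero]
      positivity
    have := hM s ⟨h, h'⟩
    rw [Real.norm_eq_abs] at this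
    nlinarith [sq_abs (deriv Real.smoothTransition s), abs_nonneg (deriv Real.smoothTransition s)]
  refine ⟨M ^ 2 + 1, by positivity, fun n X _ g u x hg hu => ?_⟩
  have d := (c.differentiable one_ne_zero (u x)).hasDerivAt
  rw [ip_comp d d (hu.diff x) (hu.diff x), ← sq]
  exact mul_le_mul_of_nonneg_right (b _) (hg.ip_nonneg u x)

theorem sm_st {u : X → ℝ} (hu : Smooth u) : Smooth fun y => Real.smoothTransition (u y) :=
  Real.smoothTransition.contDiff.compM hu

/-- stage 1 on a closed manifold -/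
theorem closed (h : ROUND n) : ∃ C₂ > (0 : ℝ), ∀ (X : Type) [Mf0 n X] [CompactSpace X]
    (g : Fld n X) (v : Fin n → X → ℝ) (B N Co : Set X) (Rel : X → X → Prop) (J : Type) [Fintype J]
    (j₀ : J) (σ : J → X → ℝ) (a : ℝ), Met g → CC ∞ v → IsClosed B → IsOpen N → B ⊆ N →
    (∀ x y, Rel x y → x ∉ N) → Sd Rel Co j₀ σ → 0 < a → (∀ j x, ip g (σ j) (σ j) x ≤ a) →
    ∀ ε > (0 : ℝ), ∃ (g' : Fld n X) (v' : Fin n → X → ℝ) (l : X → ℝ) (A : Type) (_ : Fintype A)
      (bg : A → Prop) (p : A → X → ℝ), Ok g' v' l ∧ Up g g' ∧ Gd Rel Co bg p ∧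
      (∀ x ∈ B, g' x = g x ∧ (∀ i, v' i x = v i x) ∧ l x = 1) ∧ ∀ x, l x ≤ 1 ∧
        Rv g v x - C₂ * a + (1 / l x ^ 2 - 1) ≤ Rv g' v' x ∧ ip g' l l x ≤ ε ∧
        l x ^ 2 * En g' p x ≤ ε := by
  obtain ⟨C₂, C2, h⟩ := iter h
  obtain ⟨M, M0, hM⟩ := exists_st
  refine ⟨C₂, C2, ?_⟩
  intro X _ _ g v B N Co Rel J _ j₀ σ a hg hv hB hN hBN hR hσ ha h2 ε ε0
  obtain ⟨κ, κ0, κ1, η, η1, E, E0, h3⟩ := h X g v B N Co Rel J j₀ σ a hg hv hB hN hBN hR hσ ha h2
    (ε / (16 * M + 1)) (by positivity)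
  rw [le_div_iff₀ (by positivity)] at κ1
  have κ2 : κ ≤ ε := by nlinarith [mul_pos κ0 M0]
  set l₀ := ε / (ε + κ + E + 1) with hl
  have l0 : 0 < l₀ := by positivity
  have l1 : l₀ * (ε + κ + E + 1) = ε := div_mul_cancel₀ _ (by positivity)
  have l2 : l₀ ≤ 1 := by nlinarith
  obtain ⟨g', v', φ, A, _, bg, p, k1, k2, k3⟩ := h3 (4 / l₀ ^ 2)
  have s1 : Smooth fun x => 4 * φ x + -1 := (cd_const.mul k1.sm).add cd_const
  have b0 := fun x => Real.smoothTransition.nonneg (4 * φ x + -1)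
  have b1 := fun x => Real.smoothTransition.le_one (4 * φ x + -1)
  have lo : ∀ x, l₀ ≤ (l₀ - 1) * Real.smoothTransition (4 * φ x + -1) + 1 := fun x => by
    nlinarith [b1 x]
  have hi : ∀ x, (l₀ - 1) * Real.smoothTransition (4 * φ x + -1) + 1 ≤ 1 := fun x => by
    nlinarith [b0 x]
  refine ⟨g', v', fun x => (l₀ - 1) * Real.smoothTransition (4 * φ x + -1) + 1, A, inferInstance,
    bg, p, ⟨k1.met, k1.cc, (cd_const.mul (sm_st s1)).add cd_const, fun x => l0.trans_le (lo x)⟩,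
    k1.up, k2, fun x hx => ⟨(k1.fz x hx).1, (k1.fz x hx).2.1, ?_⟩, fun x => ⟨hi x, ?_, ?_, ?_⟩⟩
  · simp only [(k1.fz x hx).2.2]
    rw [Real.smoothTransition.zero_of_nonpos (by norm_num)]; ring
  · have e := (k3 x).2.2
    have p0 : 0 ≤ 4 / l₀ ^ 2 * φ x := mul_nonneg (by positivity) (k1.p0 x)
    rcases le_total (φ x) (1 / 4) with q | q
    · simp only
      rw [Real.smoothTransition.zero_of_nonpos (by linarith)]
      norm_num
      linarith
    · have q1 : 1 / ((l₀ - 1) * Real.smoothTransition (4 * φ x + -1) + 1) ^ 2 ≤ 1 / l₀ ^ 2 :=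
        one_div_le_one_div_of_le (by positivity) (pow_le_pow_left₀ l0.le (lo x) 2)
      have q2 : 4 / l₀ ^ 2 * (1 / 4) ≤ 4 / l₀ ^ 2 * φ x :=
        mul_le_mul_of_nonneg_left q (by positivity)
      have q3 : 4 / l₀ ^ 2 * (1 / 4) = 1 / l₀ ^ 2 := by ring
      simp only
      linarith
  · have e := hM n X g' _ x k1.met s1
    rw [ip_affine] at e
    rw [ip_affine]
    have e1 := k1.gr x
    have e2 := k1.met.ip_nonneg (fun y => Real.smoothTransition (4 * φ y + -1)) x
    have e3 : (l₀ - 1) ^ 2 ≤ 1 := by nlinarith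
    nlinarith [mul_le_mul_of_nonneg_left e1 M0.le, mul_le_mul_of_nonneg_right e3 e2]
  · have e0 := En_nonneg k1.met p x
    rcases le_total (φ x) (1 / 2) with q | q
    · have e := (k3 x).2.1 q
      have e3 : ((l₀ - 1) * Real.smoothTransition (4 * φ x + -1) + 1) ^ 2 ≤ 1 :=
        pow_le_one₀ (l0.le.trans (lo x)) (hi x)
      nlinarith [mul_le_mul_of_nonneg_right e3 e0]
    · simp only
      rw [Real.smoothTransition.one_of_one_le (by linarith), mul_one, sub_add_cancel]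
      have e := (k3 x).1
      have e3 : l₀ ^ 2 ≤ l₀ := by nlinarith
      nlinarith [mul_le_mul_of_nonneg_right e3 e0, mul_le_mul_of_nonneg_left e l0.le,
        mul_pos l0 ε0]

/-- a smooth function which approximates the distance from a compact set -/
theorem exists_om (hg : Met g) (hL : Lp g) {A : Set X} (hA : IsCompact A) (hne : A.Nonempty) :
    ∃ om : X → ℝ, Smooth om ∧ (∀ x ∈ A, om x ≤ 2) ∧ (∀ x, ∃ q ∈ A, dist x q ≤ om x + 2) ∧
      ∀ x, ip g om om x ≤ 4 := by
  classical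
  obtain ⟨t, t1, t2⟩ := hA.elim_nhds_subcover (fun q => ball q 1) fun q _ => ball_mem_nhds q one_pos
  choose ρ r1 r2 r3 using fun q => hL q 1 one_pos
  have tn : t.Nonempty := by
    obtain ⟨x, hx⟩ := hne
    obtain ⟨q, hq, -⟩ := mem_iUnion₂.1 (t2 hx)
    exact ⟨q, hq⟩
  obtain ⟨β, hβ⟩ : ∃ β : ℝ, β = (t.card : ℝ) := ⟨_, rfl⟩
  have β0 : 0 < β := hβ ▸ Nat.cast_pos.2 tn.card_pos
  let S : X → ℝ := fun x => ∑ q ∈ t, Real.exp (-β * ρ q x)
  have S0 : ∀ x, 0 < S x := fun x => Finset.sum_pos (fun _ _ => Real.exp_pos _) tn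
  have se : ∀ q, Smooth fun x => Real.exp (-β * ρ q x) := fun q => CD.exp (cd_const.mul (r1 q))
  have sS : Smooth S := CD.sum fun q _ => se q
  refine ⟨fun x => -β⁻¹ * Real.log (S x), cd_const.mul (CD.log sS fun x => (S0 x).ne'),
    fun x hx => ?_, fun x => ?_, fun x => ?_⟩
  · obtain ⟨q, hq, k⟩ := mem_iUnion₂.1 (t2 hx)
    have h1 : -β * ρ q x ≤ Real.log (S x) := (Real.le_log_iff_exp_le (S0 x)).2
      (Finset.single_le_sum (f := fun q => Real.exp (-β * ρ q x)) (fun _ _ => (Real.exp_pos _).le) hq)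
    have h2 : ρ q x ≤ 2 := by linarith [(abs_le.1 (r2 q x)).2, mem_ball.1 k]
    show -β⁻¹ * Real.log (S x) ≤ 2
    rw [neg_mul, neg_le, le_inv_mul_iff₀ β0]
    nlinarith
  · obtain ⟨q, hq, k⟩ := t.exists_min_image (fun q => ρ q x) tn
    refine ⟨q, t1 q hq, ?_⟩
    have h1 : S x ≤ β * Real.exp (-β * ρ q x) := by
      refine (Finset.sum_le_card_nsmul _ _ (Real.exp (-β * ρ q x)) fun q' hq' =>
        Real.exp_le_exp.2 (by nlinarith [k q' hq'])).trans_eq ?_
      rw [nsmul_eq_mul, ← hβ]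
    have h2 := Real.log_le_log (S0 x) h1
    rw [Real.log_mul β0.ne' (Real.exp_pos _).ne', Real.log_exp] at h2
    have h3 := Real.log_le_sub_one_of_pos β0
    have h4 : β⁻¹ * Real.log (S x) ≤ 1 - ρ q x := by
      rw [inv_mul_le_iff₀ β0]; linarith
    linarith [(abs_le.1 (r2 q x)).1]
  · set om : X → ℝ := fun x => -β⁻¹ * Real.log (S x) with hom
    have h1 : ∀ i, pd i om x = ∑ q ∈ t, Real.exp (-β * ρ q x) / S x * pd i (ρ q) x := fun i => by
      rw [hom, pd_const_mul, pd_comp (Real.hasDerivAt_log (S0 x).ne') (sS.diff x),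
        pd_sum t fun q _ => (se q).diff x, Finset.mul_sum, Finset.mul_sum]
      refine Finset.sum_congr rfl fun q _ => ?_
      rw [pd_comp (Real.hasDerivAt_exp _) (((r1 q).diff x).const_mul _), pd_const_mul]
      field_simp
    have h2 : ip g om om x = ∑ q ∈ t, Real.exp (-β * ρ q x) / S x * ip g (ρ q) om x :=
      iv_sum (g := g) (a := df om) (A := fun q => df (ρ q)) t h1 (df om)
    have h3 : ip g om om x ≤ ∑ q ∈ t, Real.exp (-β * ρ q x) / S x * (2 + ip g om om x / 2) := by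
      refine h2.le.trans (Finset.sum_le_sum fun q _ => mul_le_mul_of_nonneg_left ?_
        (div_pos (Real.exp_pos _) (S0 x)).le)
      have e1 := two_iv_le hg (df (ρ q)) (df om) x one_pos
      have e2 := hg.gn_sq (ρ q) x
      have e3 := le_abs_self (ip g (ρ q) om x)
      simp only [iv_df] at e1
      nlinarith [r3 q x, gn_nonneg g (ρ q) x]
    rw [← Finset.sum_mul, ← Finset.sum_div, div_self (S0 x).ne'] at h3
    linarith

end Vale.Agent.P210S
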