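import Vale.Agent.P210S.Lev

/-!
# P210S: new labels and the outer iteration
-/

open Filter Topology Set Metric
open scoped ContDiff
open Vale.Agent.P366M Vale.Agent.P210G Vale.Agent.P210U

noncomputable section

namespace Vale.Agent.P210S

variable {n : ℕ} {c C C' : ℝ} {X : Type} [Mf0 n X] {g g₁ : Fld n X} {v v₁ : Fin n → X → ℝ}
  {B N Co : Set X} {κ η : ℝ} {φ : X → ℝ} {Rel : X → X → Prop} {A : Type} [Fintype A]
  {p : A → X → ℝ} {bg : A → Prop}

open Classical in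
/-- the mass of the amplitudes in `I` -/
def Ms (I : A → Prop) (p : A → X → ℝ) (x : X) : ℝ := ∑ a, if I a then p a x ^ 2 else 0

theorem sm_Ms (I : A → Prop) (hp : ∀ a, Smooth (p a)) : Smooth (Ms I p) :=
  CD.sum fun a _ => by
    by_cases h : I a
    · simp only [if_pos h]; exact CD.pow (hp a) 2
    · simp only [if_neg h]; exact cd_const

theorem ip_Ms (hg : Met g) (I : A → Prop) (hp : ∀ a, Smooth (p a)) {x : X}
    (h1 : ∑ a, p a x ^ 2 = 1) : ip g (Ms I p) (Ms I p) x ≤ 4 * En g p x := by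
  classical
  have h : ∀ i, pd i (Ms I p) x = ∑ a, (if I a then 2 * p a x else 0) * pd i (p a) x := fun i => by
    refine (pd_sum Finset.univ (fun a _ => ?_) i).trans (Finset.sum_congr rfl fun a _ => ?_)
    · by_cases h : I a
      · simp only [if_pos h]; exact ((hp a).diff x).pow 2
      · simp only [if_neg h]; exact dAt_const _
    · by_cases h : I a
      · simp only [if_pos h]; rw [pd_pow ((hp a).diff x)]; norm_num
      · simp only [if_neg h]; rw [pd_const, zero_mul]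
  refine (ip_comb hg h).trans (mul_le_mul_of_nonneg_right ?_ (En_nonneg hg p x))
  rw [← mul_one (4 : ℝ), ← h1, Finset.mul_sum]
  refine Finset.sum_le_sum fun a _ => ?_
  split_ifs
  · linarith [mul_pow 2 (p a x) 2]
  · nlinarith [sq_nonneg (p a x)]

omit [Mf0 n X] in
theorem Ms_pos {I : A → Prop} {x : X} (h : 0 < Ms I p x) : ∃ a, I a ∧ p a x ≠ 0 := by
  by_contra hc
  push Not at hc
  refine h.ne' (Finset.sum_eq_zero fun a _ => ?_)
  split_ifs with k
  · rw [hc a k]; ring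
  · rfl

omit [Mf0 n X] in
theorem Ms_one {I : A → Prop} {x : X} (h1 : ∑ a, p a x ^ 2 = 1) (h : ∀ a, p a x ≠ 0 → I a) :
    Ms I p x = 1 := by
  rw [← h1]
  refine Finset.sum_congr rfl fun a _ => ?_
  split_ifs with k
  · rfl
  · rw [not_not.1 (mt (h a) k)]; ring

/-- a unit family with background amplitudes -/
structure Gd (Rel : X → X → Prop) (Co : Set X) (bg : A → Prop) (p : A → X → ℝ) : Prop where
  sm : ∀ a, Smooth (p a)
  one : ∀ x, ∑ a, p a x ^ 2 = 1
  rel : ∀ a, ¬ bg a → ∀ x x', p a x ≠ 0 → p a x' ≠ 0 → Rel x x'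
  co : ∀ a, bg a → ∀ x, p a x ≠ 0 → x ∉ Co

/-- band coordinates with a background label -/
structure Sd {J : Type} (Rel : X → X → Prop) (Co : Set X) (j₀ : J) (σ : J → X → ℝ) : Prop where
  sm : ∀ j, Smooth (σ j)
  cov : ∀ x, ∃ j, σ j x < 0
  rel : ∀ j ≠ j₀, ∀ x x', σ j x < 1 → σ j x' < 1 → Rel x x'
  co : ∀ x, σ j₀ x < 1 → x ∉ Co

/-- **new labels** -/
theorem Gd.sd [CompactSpace X] (h : Gd Rel Co bg p) : ∃ (J : Type) (_ : Fintype J) (j₀ : J)
    (σ : J → X → ℝ), Sd Rel Co j₀ σ ∧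
      ∀ g : Fld n X, Met g → ∀ j x, ip g (σ j) (σ j) x ≤ 256 * En g p x := by
  classical
  let s : X → X → ℝ := fun y x => -16 * ∑ a, p a y * p a x + 15
  have ss : ∀ y, Smooth (s y) := fun y =>
    (cd_const.mul (CD.sum fun a _ => cd_const.mul (h.sm a))).add cd_const
  have sb := sm_Ms bg h.sm
  obtain ⟨t, t1, t2⟩ := (isClosed_le sb.cont (continuous_const (y := (1 / 2 : ℝ)))).isCompact
    |>.elim_nhds_subcover (fun y => {x | s y x < 0}) fun y _ =>
      (isOpen_lt (ss y).cont continuous_const).mem_nhds (by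
        have := h.one y
        simp only [sq] at this
        simp only [s, mem_ofPred_eq, this]
        norm_num)
  have ds : ∀ y x, s y x < 1 → ∑ a, (p a y - p a x) ^ 2 < 1 / 4 := fun y x hx => by
    have e : ∑ a, (p a y - p a x) ^ 2 =
        ∑ a, p a y ^ 2 + ∑ a, p a x ^ 2 - 2 * ∑ a, p a y * p a x := by
      rw [Finset.mul_sum, ← Finset.sum_add_distrib, ← Finset.sum_sub_distrib]
      exact Finset.sum_congr rfl fun _ _ => by ring
    rw [e, h.one, h.one]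
    simp only [s] at hx
    linarith
  refine ⟨Option t, inferInstance, none, fun j => j.elim (fun x => -2 * Ms bg p x + 1) fun y => s y,
    ⟨fun j => ?_, fun x => ?_, fun j hj x x' hx hx' => ?_, fun x hx => ?_⟩, fun g hg j x => ?_⟩
  · rcases j with _ | y
    · exact (cd_const.mul sb).add cd_const
    · exact ss y
  · by_cases hx : Ms bg p x ≤ 1 / 2
    · obtain ⟨y, hy, k⟩ := mem_iUnion₂.1 (t2 hx)
      exact ⟨some ⟨y, hy⟩, k⟩
    · exact ⟨none, show -2 * Ms bg p x + 1 < 0 by linarith⟩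
  · obtain ⟨y, rfl⟩ := Option.ne_none_iff_exists'.1 hj
    have h1 := ds y x hx
    have h2 := ds y x' hx'
    have h3 : Ms bg p y ≤ 1 / 2 := t1 y y.2
    by_contra hc
    have h4 : ∑ a, p a y ^ 2 ≤ ∑ a, ((if bg a then p a y ^ 2 else 0) +
        ((p a y - p a x) ^ 2 + (p a y - p a x') ^ 2)) := Finset.sum_le_sum fun a _ => by
      have q1 := sq_nonneg (p a y - p a x)
      have q2 := sq_nonneg (p a y - p a x')
      split_ifs with k
      · linarith
      · by_cases k1 : p a x = 0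
        · rw [k1, sub_zero]; linarith
        by_cases k2 : p a x' = 0
        · rw [k2, sub_zero]; linarith
        exact absurd (h.rel a k x x' k1 k2) hc
    rw [Finset.sum_add_distrib, Finset.sum_add_distrib, h.one] at h4
    change 1 ≤ Ms bg p y + _ at h4
    linarith
  · obtain ⟨a, h1, h2⟩ := Ms_pos (I := bg) (p := p) (x := x)
      (by have : -2 * Ms bg p x + 1 < 1 := hx; linarith)
    exact h.co a h1 x h2
  · have e0 := En_nonneg hg p x
    rcases j with _ | y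
    · refine (ip_affine _ _).trans_le ?_
      linarith [ip_Ms hg bg h.sm (h.one x)]
    · refine (ip_affine _ _).trans_le ?_
      have := ip_comb hg (u := fun x => ∑ a, p a y * p a x) (p := p) (t := fun a => p a y) (x := x)
        fun i => (pd_sum Finset.univ (fun a _ => ((h.sm a).diff x).const_mul _) i).trans
          (Finset.sum_congr rfl fun a _ => pd_const_mul _ i)
      rw [h.one] at this
      linarith

/-- the state of the outer iteration -/
def St (g : Fld n X) (v : Fin n → X → ℝ) (B : Set X) (Rel : X → X → Prop) (Co : Set X) (κ η : ℝ) :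
    Prop := ∃ E ≥ (0 : ℝ), ∀ K : ℝ, ∃ (g' : Fld n X) (v' : Fin n → X → ℝ) (φ : X → ℝ)
  (A : Type) (_ : Fintype A) (bg : A → Prop) (p : A → X → ℝ), Nw g v B κ g' v' φ ∧
    Gd Rel Co bg p ∧ ∀ x, En g' p x ≤ κ + E ∧ (φ x ≤ 1 / 2 → En g' p x ≤ κ) ∧
      Rv g v x - η + K * φ x ≤ Rv g' v' x

theorem Lm_le {a b t : ℝ} (ha : 0 < a) (t0 : 0 ≤ t) (t1 : t ≤ 1) :
    Lm a (a + t * b) ≤ 9 * a ^ 2 + (a * b + 8 * b ^ 4 / a ^ 2) * t := by
  have h1 : (a + t * b) ^ 4 ≤ 8 * a ^ 4 + 8 * (t * b) ^ 4 := by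
    nlinarith [sq_nonneg (a - t * b), sq_nonneg (a ^ 2 - (t * b) ^ 2), sq_nonneg (a + t * b),
      mul_nonneg (sq_nonneg (a - t * b)) (sq_nonneg (a + t * b)),
      mul_nonneg (sq_nonneg (a - t * b)) (add_nonneg (sq_nonneg a) (sq_nonneg (t * b)))]
  have h2 : (t * b) ^ 4 ≤ b ^ 4 * t := by
    rw [mul_pow, mul_comm]
    exact mul_le_mul_of_nonneg_left (pow_le_of_le_one t0 t1 (by norm_num)) (by positivity)
  have h3 : (a + t * b) ^ 4 / a ^ 2 ≤ (8 * a ^ 4 + 8 * (b ^ 4 * t)) / a ^ 2 :=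
    div_le_div_of_nonneg_right (by linarith) (by positivity)
  have h4 : (8 * a ^ 4 + 8 * (b ^ 4 * t)) / a ^ 2 = 8 * a ^ 2 + 8 * b ^ 4 / a ^ 2 * t := by
    field_simp
  unfold Lm
  nlinarith

variable [CompactSpace X]

theorem next (h : One n c C C') (c0 : 0 < c) (C0 : 0 < C') (hB : IsClosed B) (hN : IsOpen N)
    (hBN : B ⊆ N) (hR : ∀ x y, Rel x y → x ∉ N) (h1 : Nw g v B κ g₁ v₁ φ) {J : Type} [Fintype J]
    {j₀ : J} {σ : J → X → ℝ} (hσ : Sd Rel Co j₀ σ) {a b τ ε : ℝ} (ha : 0 < a) (hb : 0 ≤ b)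
    (τ0 : 0 < τ) (ε0 : 0 < ε) (h2 : ∀ j x, ip g₁ (σ j) (σ j) x ≤ a + φ x * b)
    (h3 : ∀ x, Rv g v x - η + 2 * C' * τ * (a * b + 8 * b ^ 4 / a ^ 2) * φ x ≤ Rv g₁ v₁ x) :
    St g v B Rel Co (C / τ) (η + 18 * C' * τ * a ^ 2 + ε) := by
  obtain ⟨E, E0, k⟩ := big (j₀ := j₀) h c0 C0 hB hN hBN h1.met h1.cc hσ.sm
    (y := fun x => a + φ x * b) (cd_const.add (CD.mul h1.sm cd_const)) ha
    (fun x => add_nonneg ha.le (mul_nonneg (h1.p0 x) hb)) h2
    (fun j hj x hx => hR x x (hσ.rel j hj x x hx hx)) τ0 ε0 hσ.cov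
  refine ⟨E, E0, fun K => ?_⟩
  obtain ⟨g', v', φ', A', _, lab', p', k1, k2, k3⟩ := k K
  refine ⟨g', v', φ', A', inferInstance, fun a => lab' a = j₀, p', h1.trans k1, ⟨k2.sm, k2.one,
    fun a ha x x' hx hx' => hσ.rel _ ha x x' (k2.sup a x hx) (k2.sup a x' hx'),
    fun a ha x hx => hσ.co x (ha ▸ k2.sup a x hx)⟩, fun x => ⟨(k3 x).1, (k3 x).2.1, ?_⟩⟩
  have e1 := (k3 x).2.2
  have e2 := mul_le_mul_of_nonneg_left (Lm_le (b := b) ha (h1.p0 x) (h1.p1 x))
    (show 0 ≤ 2 * C' * τ by positivity)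
  have e3 := h3 x
  simp only at e1
  linarith

theorem step (h : One n c C C') (c0 : 0 < c) (C1 : 0 < C) (C0 : 0 < C') (hB : IsClosed B)
    (hN : IsOpen N) (hBN : B ⊆ N) (hR : ∀ x y, Rel x y → x ∉ N) (κ0 : 0 < κ)
    (h1 : St g v B Rel Co κ η) :
    St g v B Rel Co (κ / 4) (η + (72 * 256 ^ 2 * C * C' + 1) * κ) := by
  obtain ⟨E, E0, h1⟩ := h1
  obtain ⟨g₁, v₁, φ, A, _, bg, p, k1, k2, k3⟩ := h1 (2 * C' * (4 * C / κ) *
    (256 * κ * (512 * E) + 8 * (512 * E) ^ 4 / (256 * κ) ^ 2))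
  obtain ⟨J, _, j₀, σ, s1, s2⟩ := k2.sd
  have := next h c0 C0 hB hN hBN hR k1 s1 (a := 256 * κ) (b := 512 * E) (τ := 4 * C / κ)
    (by positivity) (by positivity) (by positivity) κ0 (fun j x => ?_) fun x => (k3 x).2.2
  · convert this using 1 <;> field_simp
    ring
  · refine (s2 g₁ k1.met j x).trans ?_
    have := mul_nonneg (k1.p0 x) E0
    rcases le_total (φ x) (1 / 2) with q | q
    · linarith [(k3 x).2.1 q]
    · nlinarith [(k3 x).1]

/-- **the outer iteration** -/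
theorem iter (h : ROUND n) : ∃ C₂ > (0 : ℝ), ∀ (X : Type) [Mf0 n X] [CompactSpace X] (g : Fld n X)
    (v : Fin n → X → ℝ) (B N Co : Set X) (Rel : X → X → Prop) (J : Type) [Fintype J] (j₀ : J)
    (σ : J → X → ℝ) (a : ℝ), Met g → CC ∞ v → IsClosed B → IsOpen N → B ⊆ N →
    (∀ x y, Rel x y → x ∉ N) → Sd Rel Co j₀ σ → 0 < a → (∀ j x, ip g (σ j) (σ j) x ≤ a) →
    ∀ ε > (0 : ℝ), ∃ κ > (0 : ℝ), κ ≤ ε ∧ ∃ η ≤ C₂ * a, St g v B Rel Co κ η := by
  obtain ⟨c, c0, C, C1, C', C0, h⟩ := one_of h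
  set C₃ := 72 * 256 ^ 2 * C * C' + 1 with h3
  have p3 : 0 < C₃ := by positivity
  refine ⟨18 * C' * C + 1 + 2 * C₃, by positivity, ?_⟩
  intro X _ _ g v B N Co Rel J _ j₀ σ a hg hv hB hN hBN hR hσ ha h2 ε ε0
  have h0 : ∀ m : ℕ, ∃ η, η + 2 * C₃ * (a / 4 ^ m) ≤ (18 * C' * C + 1 + 2 * C₃) * a ∧
      St g v B Rel Co (a / 4 ^ m) η := fun m => by
    induction m with
    | zero =>
      have := next (κ := 0) (η := 0) (φ := fun _ => 0) h c0 C0 hB hN hBN hR
        ⟨hg, hv, up_refl g, cd_const, fun _ _ => ⟨rfl, fun _ => rfl, rfl⟩, fun _ => le_rfl,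
          fun _ => zero_le_one, fun _ => (ip_const_left 0).le⟩ hσ (b := 0) (τ := C / a) ha le_rfl
        (by positivity) ha (fun j x => by linarith [h2 j x]) fun x => by linarith
      refine ⟨_, le_of_eq ?_, by convert this using 1; field_simp⟩
      field_simp
      ring
    | succ m ih =>
      obtain ⟨η, k1, k2⟩ := ih
      have q : 0 < a / 4 ^ m := by positivity
      have e : a / 4 ^ (m + 1) = a / 4 ^ m / 4 := by rw [pow_succ, div_div]
      rw [e]
      exact ⟨_, by nlinarith [mul_pos p3 q], step h c0 C1 C0 hB hN hBN hR q k2⟩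
  obtain ⟨m, hm⟩ := pow_unbounded_of_one_lt (a / ε) (show (1 : ℝ) < 4 by norm_num)
  obtain ⟨η, k1, k2⟩ := h0 m
  have q : 0 < a / 4 ^ m := by positivity
  refine ⟨_, q, ?_, η, by nlinarith [mul_pos p3 q], k2⟩
  rw [div_lt_iff₀ ε0] at hm
  rw [div_le_iff₀ (by positivity)]
  linarith

end Vale.Agent.P210S
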