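import Vale.Agent.P210S.Pot

/-!
# P210S: the levels
-/

open Filter Topology Set Metric
open scoped ContDiff
open Vale.Agent.P366M Vale.Agent.P210G Vale.Agent.P210U

noncomputable section

namespace Vale.Agent.P210S

/-- `ROUND` for band coordinates `σ j` -/
def One (n : ℕ) (c C C' : ℝ) : Prop := ∀ (X : Type) [Mf0 n X] [CompactSpace X] (g : Fld n X)
  (v : Fin n → X → ℝ), Met g → CC ∞ v → ∀ (J : Type) [Fintype J] (σ : J → X → ℝ) (y : X → ℝ)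
  (a : ℝ), (∀ j, Smooth (σ j)) → Smooth y → 0 < a → (∀ x, 0 ≤ y x) →
  (∀ j x, ip g (σ j) (σ j) x ≤ y x) → ∀ (A : Type) [Fintype A] (lab : A → J) (p : A → X → ℝ),
  Fam (fun j => {x | σ j x ≤ 1 / 2}) lab p →
  ∀ (B N : Set X) (j₀ : J), IsClosed B → IsOpen N → B ⊆ N → (∀ j ≠ j₀, ∀ x, σ j x < 1 → x ∉ N) →
  ∀ τ > (0 : ℝ), ∀ ε > (0 : ℝ), ∀ K : ℝ,
  ∃ (g' : Fld n X) (v' : Fin n → X → ℝ) (φ : X → ℝ) (A' : Type) (_ : Fintype A') (lab' : A' → J)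
    (p' : A' → X → ℝ), Nw g v B (C / τ) g' v' φ ∧ Fam (fun j => {x | σ j x < 1}) lab' p' ∧ ∀ x,
      En g' p' x ≤ C / τ + En g p x ∧ (φ x ≤ 1 / 2 → En g' p' x ≤ C / τ) ∧
      Rv g v x - C' * τ * Lm a (y x) - c * τ * En g p x ^ 2 + 32 * c * τ * En g' p' x ^ 2 +
        K * φ x - ε ≤ Rv g' v' x

theorem one_of {n : ℕ} (h : ROUND n) : ∃ c > (0 : ℝ), ∃ C > (0 : ℝ), ∃ C' > (0 : ℝ),
    One n c C C' := by
  obtain ⟨c, c0, C, C0, w, w0, h⟩ := h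
  obtain ⟨C₁, C1, hp⟩ := exists_pot w0
  refine ⟨c, c0, C, C0, C * C₁ * 256, by positivity, ?_⟩
  intro X _ _ g v hg hv J _ σ y a hσ hy ha y0 hy' A _ lab p hF B N j₀ hB hN hBN hj τ τ0 ε ε0 K
  have hσ' : ∀ j, Smooth fun x => 4 * σ j x + -2 := fun j => (cd_const.mul (hσ j)).add cd_const
  have P := hp n X g J (fun j x => 4 * σ j x + -2) (fun x => 16 * y x) (16 * a) hg hσ'
    (cd_const.mul hy) (by positivity) (fun x => by have := y0 x; positivity) fun j x => by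
      rw [ip_affine]; linarith [hy' j x]
  obtain ⟨g', v', φ, A', _, lab', p', h1, h2, h3⟩ := h X g v hg hv J _ _ _ P A lab p
    ⟨hF.sm, hF.one, fun b x hx => by
      have : σ (lab b) x ≤ 1 / 2 := hF.sup b x hx
      refine ⟨show 4 * σ (lab b) x + -2 < 1 by linarith, ?_⟩
      rw [Gp_zero (by linarith)]; ring⟩ (fun j => {x | σ j x < 1})
    (fun j => isOpen_lt (hσ j).cont continuous_const) (fun j x hx => by
      have := closure_lt_subset_le (hσ' j).cont continuous_const hx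
      simp only [mem_ofPred_eq] at this ⊢
      linarith) B N j₀ hB hN hBN hj τ τ0 ε ε0 K
  refine ⟨g', v', φ, A', inferInstance, lab', p', h1, h2, fun x => ⟨(h3 x).1, (h3 x).2.1, ?_⟩⟩
  have := (h3 x).2.2
  rw [Lm_mul _ (by norm_num)] at this
  linarith

variable {n : ℕ} {c C C' : ℝ} {X : Type} [Mf0 n X] {g g₁ g₂ : Fld n X} {v v₁ v₂ : Fin n → X → ℝ}
  {B N : Set X} {κ κ' : ℝ} {φ φ' : X → ℝ}

theorem Nw.trans (h : Nw g v B κ g₁ v₁ φ) (h' : Nw g₁ v₁ B κ' g₂ v₂ φ') : Nw g v B κ' g₂ v₂ φ' :=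
  ⟨h'.met, h'.cc, up_trans h.up h'.up, h'.sm, fun x hx => ⟨(h'.fz x hx).1.trans (h.fz x hx).1,
    fun i => ((h'.fz x hx).2.1 i).trans ((h.fz x hx).2.1 i), (h'.fz x hx).2.2⟩, h'.p0, h'.p1, h'.gr⟩

theorem Fam.mono {J A : Type} [Fintype A] {U U' : J → Set X} {lab : A → J} {p : A → X → ℝ}
    (h : Fam U lab p) (hU : ∀ j, U j ⊆ U' j) : Fam U' lab p :=
  ⟨h.sm, h.one, fun a x hx => hU _ (h.sup a x hx)⟩

/-- the output of several levels: the curvature is at least `R + G * energy ^ 2 + K φ` -/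
def Out {J : Type} (g : Fld n X) (v : Fin n → X → ℝ) (B : Set X) (U : J → Set X) (κ G : ℝ)
    (R : X → ℝ) : Prop := ∃ E ≥ (0 : ℝ), ∀ K : ℝ, ∃ (g' : Fld n X) (v' : Fin n → X → ℝ) (φ : X → ℝ)
  (A' : Type) (_ : Fintype A') (lab' : A' → J) (p' : A' → X → ℝ), Nw g v B κ g' v' φ ∧
    Fam U lab' p' ∧ ∀ x, En g' p' x ≤ κ + E ∧ (φ x ≤ 1 / 2 → En g' p' x ≤ κ) ∧
      R x + G * En g' p' x ^ 2 + K * φ x ≤ Rv g' v' x

theorem Lm_nonneg {a y : ℝ} (ha : 0 ≤ a) (hy : 0 ≤ y) : 0 ≤ Lm a y := by unfold Lm; positivity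

variable [CompactSpace X] {J : Type} [Fintype J] {j₀ : J}

theorem levels (h : One n c C C') (C0 : 0 < C') (hB : IsClosed B) (hN : IsOpen N) (hBN : B ⊆ N)
    (hg : Met g) (hv : CC ∞ v) {A : Type} [Fintype A] {lab : A → J} {p : A → X → ℝ} (L : ℕ) :
    ∀ (σ : J → X → ℝ) (y : X → ℝ) (a τ ε : ℝ), (∀ j, Smooth (σ j)) → Smooth y → 0 < a →
    (∀ x, 0 ≤ y x) → (∀ j x, ip g (σ j) (σ j) x ≤ y x) → (∀ j ≠ j₀, ∀ x, σ j x < 1 → x ∉ N) →
    0 < τ → 0 < ε → Fam (fun j => {x | σ j x ≤ 0}) lab p →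
    Out g v B (fun j => {x | σ j x < 1}) (C / τ) (32 * c * τ)
      fun x => Rv g v x - 2 * C' * τ * Lm a (y x) - c * τ / 32 ^ L * En g p x ^ 2 - ε := by
  induction L with
  | zero =>
    intro σ y a τ ε hσ hy ha y0 hy' hj τ0 ε0 hp
    obtain ⟨E, E0, hE⟩ := En_bd hg hp.sm
    refine ⟨E, E0, fun K => ?_⟩
    obtain ⟨g', v', φ, A', _, lab', p', h1, h2, h3⟩ := h X g v hg hv J σ y a hσ hy ha y0 hy' A lab p
      (hp.mono fun j x (hx : σ j x ≤ 0) => show σ j x ≤ _ by linarith) B N j₀ hB hN hBN hj τ τ0 ε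
      ε0 K
    refine ⟨g', v', φ, A', inferInstance, lab', p', h1, h2, fun x => ⟨by linarith [(h3 x).1, hE x],
      (h3 x).2.1, ?_⟩⟩
    have := mul_nonneg (mul_pos C0 τ0).le (Lm_nonneg ha.le (y0 x))
    simp only [pow_zero, div_one]
    linarith [(h3 x).2.2]
  | succ L ih =>
    intro σ y a τ ε hσ hy ha y0 hy' hj τ0 ε0 hp
    obtain ⟨E₁, -, h0⟩ := ih (fun j x => 2 * σ j x + 0) (fun x => 4 * y x) (4 * a) (τ / 32) (ε / 2)
      (fun j => (cd_const.mul (hσ j)).add cd_const) (cd_const.mul hy) (by positivity)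
      (fun x => by linarith [y0 x]) (fun j x => by rw [ip_affine]; linarith [hy' j x])
      (fun j hj' x hx => hj j hj' x (by linarith)) (by positivity) (by positivity)
      (hp.mono fun j x (hx : σ j x ≤ 0) => show 2 * σ j x + 0 ≤ 0 by linarith)
    obtain ⟨g₁, v₁, φ₁, A₁, _, lab₁, p₁, k1, k2, k3⟩ := h0 0
    obtain ⟨E, E0, hE⟩ := En_bd k1.met k2.sm
    refine ⟨E, E0, fun K => ?_⟩
    obtain ⟨g', v', φ, A', _, lab', p', h1, h2, h3⟩ := h X g₁ v₁ k1.met k1.cc J σ y a hσ hy ha y0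
      (fun j x => (ip_mono hg k1.met k1.up _ x).trans (hy' j x)) A₁ lab₁ p₁
      (k2.mono fun j x (hx : 2 * σ j x + 0 < 1) => show σ j x ≤ _ by linarith) B N j₀ hB hN hBN hj
      τ τ0 (ε / 2) (by positivity) K
    refine ⟨g', v', φ, A', inferInstance, lab', p', k1.trans h1, h2, fun x =>
      ⟨by linarith [(h3 x).1, hE x], (h3 x).2.1, ?_⟩⟩
    have e1 := (k3 x).2.2
    have e2 := (h3 x).2.2
    simp only [Lm_mul _ (show (4 : ℝ) ≠ 0 by norm_num)] at e1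
    have e3 : c * (τ / 32) / 32 ^ L = c * τ / 32 ^ (L + 1) := by rw [pow_succ]; field_simp
    rw [e3] at e1
    linarith

omit [CompactSpace X] in
/-- the first family -/
theorem exists_fam {σ : J → X → ℝ} (hσ : ∀ j, Smooth (σ j)) (cov : ∀ x, ∃ j, σ j x < 0) :
    ∃ p : J → X → ℝ, Fam (fun j => {x | σ j x ≤ 0}) id p := by
  let f : J → X → ℝ := fun j x => expNegInvGlue (-σ j x)
  have sf : ∀ j, Smooth (f j) := fun j => expNegInvGlue.contDiff.compM (CD.neg (hσ j))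
  have pos : ∀ x, 0 < ∑ j, f j x ^ 2 := fun x => by
    obtain ⟨j, hj⟩ := cov x
    exact Finset.sum_pos' (fun _ _ => sq_nonneg _) ⟨j, Finset.mem_univ _,
      pow_pos (expNegInvGlue.pos_of_pos (by linarith)) 2⟩
  refine ⟨fun j x => f j x / √(∑ i, f i x ^ 2), fun j => CD.div (sf j)
    (CD.sqrt (CD.sum fun i _ => CD.pow (sf i) 2) fun x => (pos x).ne')
      fun x => (Real.sqrt_pos.2 (pos x)).ne', fun x => ?_, fun j x hx => ?_⟩
  · simp only [div_pow, Real.sq_sqrt (pos x).le]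
    rw [← Finset.sum_div, div_self (pos x).ne']
  · by_contra hc
    have : f j x = 0 := expNegInvGlue.zero_of_nonpos (by simp only [id, mem_ofPred_eq] at hc; linarith)
    exact hx (by rw [this, zero_div])

/-- all the levels -/
theorem big (h : One n c C C') (c0 : 0 < c) (C0 : 0 < C') (hB : IsClosed B) (hN : IsOpen N)
    (hBN : B ⊆ N) (hg : Met g) (hv : CC ∞ v) {σ : J → X → ℝ} {y : X → ℝ} {a τ ε : ℝ}
    (hσ : ∀ j, Smooth (σ j)) (hy : Smooth y) (ha : 0 < a) (y0 : ∀ x, 0 ≤ y x)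
    (hy' : ∀ j x, ip g (σ j) (σ j) x ≤ y x) (hj : ∀ j ≠ j₀, ∀ x, σ j x < 1 → x ∉ N) (τ0 : 0 < τ)
    (ε0 : 0 < ε) (cov : ∀ x, ∃ j, σ j x < 0) :
    Out g v B (fun j => {x | σ j x < 1}) (C / τ) 0
      fun x => Rv g v x - 2 * C' * τ * Lm a (y x) - ε := by
  obtain ⟨p, hp⟩ := exists_fam hσ cov
  obtain ⟨E₀, E0, hE⟩ := En_bd hg hp.sm
  obtain ⟨L, hL⟩ := pow_unbounded_of_one_lt (c * τ * E₀ ^ 2 / (ε / 2)) (show (1 : ℝ) < 32 by norm_num)
  obtain ⟨E, E1, h0⟩ := levels h C0 hB hN hBN hg hv L σ y a τ (ε / 2) hσ hy ha y0 hy' hj τ0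
    (by positivity) hp
  refine ⟨E, E1, fun K => ?_⟩
  obtain ⟨g', v', φ, A', _, lab', p', h1, h2, h3⟩ := h0 K
  refine ⟨g', v', φ, A', inferInstance, lab', p', h1, h2, fun x => ⟨(h3 x).1, (h3 x).2.1, ?_⟩⟩
  have e1 := (h3 x).2.2
  have e2 : 0 ≤ 32 * c * τ * En g' p' x ^ 2 := by positivity
  have e3 : c * τ / 32 ^ L * En g p x ^ 2 ≤ ε / 2 := by
    rw [div_lt_iff₀ (by positivity)] at hL
    rw [div_mul_eq_mul_div, div_le_iff₀ (by positivity)]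
    have : En g p x ^ 2 ≤ E₀ ^ 2 := pow_le_pow_left₀ (En_nonneg hg p x) (hE x) 2
    nlinarith [mul_le_mul_of_nonneg_left this (mul_pos c0 τ0).le]
  simp only at e1 ⊢
  linarith

end Vale.Agent.P210S
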